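import Vale.Agent.P338.Bdl.B11

/-! Integer multiplication on multitape Turing machines is at least as hard as the transposition of
binary matrices: explicit reductions and conditional lower bounds. -/

namespace Vale.Agent.Results.P338.MulVsTranspose

open Vale.Agent.P338

/-- (1) Machines `A` and `K` that multiply give a machine `B` that transposes `n × n` bit matrices
in time `O(T_A(n²) + (n² / log n) T_K(3 (⌈log₂ n⌉ - 6)) + n² log log n)`.
(2) If `T_A(n) / n` is nondecreasing then some such `B` takes time `O(T_A(n²) + n² log log n)`.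
(3) Every machine `A` that multiplies gives such a `B` with time
`O(T log (2 + n² log n / T) + n² log log n)`, where `T = T_A(n²)`.
(4) If every machine that transposes `n × n` bit matrices needs time at least a constant times
`n² log n`, then for every machine `A` that multiplies `T_A(n²)` is at least a constant times
`n² log n`, and `T_A(n)` is at least a constant times `n log n` if `T_A` is nondecreasing.
(5) If every machine that transposes `r × s` bit matrices needs time at least a constant times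
`r s log r` for `r ≤ s ≤ 3 r`, then for every machine `A` that multiplies `T_A(n)` is at least a
constant times `n log n`. -/
theorem result :
    (∀ A K : Machine, A.Multiplies → K.Multiplies → ∃ B : Machine, B.Transposes ∧
      ∃ C : ℝ, 0 < C ∧ ∀ n : ℕ, 256 ≤ n →
        (B.transTime n : ℝ) ≤ C * ((A.mulTime (n ^ 2) : ℝ) +
          (n : ℝ) ^ 2 / Real.log n * K.mulTime (3 * (Nat.clog 2 n - 6)) +
            (n : ℝ) ^ 2 * Real.log (Real.log n))) ∧
    (∀ A : Machine, A.Multiplies →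
      (∀ m n : ℕ, 1 ≤ m → m ≤ n → (A.mulTime m : ℝ) / m ≤ (A.mulTime n : ℝ) / n) →
      ∃ B : Machine, B.Transposes ∧ ∃ C : ℝ, 0 < C ∧ ∀ n : ℕ, 256 ≤ n →
        (B.transTime n : ℝ) ≤ C * ((A.mulTime (n ^ 2) : ℝ) +
          (n : ℝ) ^ 2 * Real.log (Real.log n))) ∧
    (∀ A : Machine, A.Multiplies → ∃ B : Machine, B.Transposes ∧
      ∃ C : ℝ, 0 < C ∧ ∀ n : ℕ, 64 ≤ n →
        (B.transTime n : ℝ) ≤ C * ((A.mulTime (n ^ 2) : ℝ) *
          Real.log (2 + (n : ℝ) ^ 2 * Real.log n / A.mulTime (n ^ 2)) +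
            (n : ℝ) ^ 2 * Real.log (Real.log n))) ∧
    ((∀ B : Machine, B.Transposes → ∃ c : ℝ, 0 < c ∧ ∃ N : ℕ, ∀ n : ℕ, N ≤ n →
        c * ((n : ℝ) ^ 2 * Real.log n) ≤ B.transTime n) →
      ∀ A : Machine, A.Multiplies → ∃ c : ℝ, 0 < c ∧ ∃ N : ℕ, 2 ≤ N ∧ ∀ n : ℕ, N ≤ n →
        c * ((n : ℝ) ^ 2 * Real.log n) ≤ A.mulTime (n ^ 2) ∧
        (Monotone A.mulTime → c * ((n : ℝ) * Real.log n) ≤ A.mulTime n)) ∧
    ((∀ B : Machine, B.TransposesRect → ∃ c : ℝ, 0 < c ∧ ∃ N : ℕ, ∀ r s : ℕ, N ≤ r →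
        r ≤ s → s ≤ 3 * r → c * ((r : ℝ) * s * Real.log r) ≤ B.rectTime r s) →
      ∀ A : Machine, A.Multiplies → ∃ c : ℝ, 0 < c ∧ ∃ N : ℕ, 2 ≤ N ∧ ∀ n : ℕ, N ≤ n →
        c * ((n : ℝ) * Real.log n) ≤ A.mulTime n) := by
  refine ⟨square_reductionF, square_reduction_mono, square_reduction_explicit, ?_,
    rect_lower_bound⟩
  intro hyp A hA
  obtain ⟨c, hc, N, hN, h⟩ := square_lower_bound hyp A hA
  exact ⟨c, hc, N, hN, fun n hn => ⟨(h n hn).1, (h n hn).2.2⟩⟩

end Vale.Agent.Results.P338.MulVsTranspose
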