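import Vale.Agent.P338.Bdl.B11

/-! Transposition of square binary matrices reduces to integer multiplication on multitape Turing
machines, and the resulting conditional lower bound for multiplication. -/

namespace Vale.Agent.Results.P338.TransposeReduction

open Vale.Agent.P338

/-- (1) Every machine `A` that multiplies gives a machine `B` that transposes `n × n` bit matrices
in time `O(T log (2 + n² log n / T) + n² log log n)`, where `T = T_A(64 n²)`.
(2) If every machine that transposes `n × n` bit matrices needs time at least a constant times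
`n² log n`, then for every machine `A` that multiplies: `T_A(64 n²)` is at least a constant times
`n² log n`; every interval `[n - 17 √n, n]` contains an `m` with `T_A(m)` at least a constant times
`n log n`; and `T_A(n)` itself is at least a constant times `n log n` if `T_A` is nondecreasing. -/
theorem result :
    (∀ A : Machine, A.Multiplies → ∃ B : Machine, B.Transposes ∧
      ∃ C : ℝ, 0 < C ∧ ∀ n : ℕ, 16 ≤ n →
        (B.transTime n : ℝ) ≤ C * ((A.mulTime (64 * n ^ 2) : ℝ) *
          Real.log (2 + (n : ℝ) ^ 2 * Real.log n / A.mulTime (64 * n ^ 2)) +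
            (n : ℝ) ^ 2 * Real.log (Real.log n))) ∧
    ((∀ B : Machine, B.Transposes → ∃ c : ℝ, 0 < c ∧ ∃ N : ℕ, ∀ n : ℕ, N ≤ n →
        c * ((n : ℝ) ^ 2 * Real.log n) ≤ B.transTime n) →
      ∀ A : Machine, A.Multiplies → ∃ c : ℝ, 0 < c ∧ ∃ N : ℕ, 2 ≤ N ∧ ∀ n : ℕ, N ≤ n →
        c * ((n : ℝ) ^ 2 * Real.log n) ≤ A.mulTime (64 * n ^ 2) ∧
        (∃ m : ℕ, m ≤ n ∧ (n : ℝ) ≤ m + 17 * Real.sqrt n ∧
          c * ((n : ℝ) * Real.log n) ≤ A.mulTime m) ∧
        (Monotone A.mulTime → c * ((n : ℝ) * Real.log n) ≤ A.mulTime n)) := by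
  refine ⟨reduction_explicit, fun hyp A hA => ?_⟩
  have h1 := lower_bound_of_transposer A.mulTime 64 hyp (reduction A hA)
  obtain ⟨c1, hc1, N1, hN1⟩ := h1
  obtain ⟨c2, hc2, N2, hN2⟩ := window_lower_bound A.mulTime ⟨c1, hc1, N1, hN1⟩
  have hcm : 0 < min c1 c2 := lt_min hc1 hc2
  refine ⟨min c1 c2, hcm, max 2 (max N1 N2), le_max_left _ _, fun n hn => ?_⟩
  have hn1 : N1 ≤ n := le_trans (le_trans (le_max_left _ _) (le_max_right _ _)) hn
  have hn2 : N2 ≤ n := le_trans (le_trans (le_max_right _ _) (le_max_right _ _)) hn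
  have hlog : 0 ≤ Real.log n := Real.log_natCast_nonneg n
  obtain ⟨m, hm1, hm2, hm3⟩ := hN2 n hn2
  have h5 : min c1 c2 * ((n : ℝ) * Real.log n) ≤ c2 * ((n : ℝ) * Real.log n) :=
    mul_le_mul_of_nonneg_right (min_le_right _ _) (by positivity)
  refine ⟨le_trans ?_ (hN1 n hn1), ⟨m, hm1, hm2, h5.trans hm3⟩, fun hmono => ?_⟩
  · exact mul_le_mul_of_nonneg_right (min_le_left _ _) (by positivity)
  · refine (h5.trans hm3).trans ?_
    exact_mod_cast hmono hm1

end Vale.Agent.Results.P338.TransposeReduction
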